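import Vale.Agent.P321W.Over
import Vale.Agent.P321.R4.H101.Fin

/-!
The base of the lower bound at the scales `2 ^ X`, `X ≥ C / q ^ 3`.
-/

namespace Vale.Agent.P321W

open Finset Filter Topology
open Vale.Agent.P321 Vale.Agent.P321.Lt Vale.Agent.P321.R4 Vale.Agent.P321.R4.H101
open Vale.Agent.P321.MA (ev le Prob push restr Dom)

theorem Pq_le_rpow {q : ℝ} (h0 : 0 < q) (h2 : q ≤ 1 / 2) {M X : ℕ} (hM : 1 ≤ M)
    (hX : 8192 * (M : ℝ) ^ 2 / q ^ 3 ≤ X) : Pq M q ≤ ((2 : ℝ) ^ X) ^ (1 / 4096 : ℝ) := by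
  have hM0 : (0 : ℝ) < M := by exact_mod_cast hM
  have hq3 : q ^ 3 ≤ q := by
    calc q ^ 3 ≤ q ^ 1 := pow_le_pow_of_le_one h0.le (by linarith) (by norm_num)
      _ = q := pow_one q
  have h1 : (M : ℝ) / q ≤ Real.exp ((M : ℝ) / q ^ 3) := by
    have h3 : (M : ℝ) / q ≤ (M : ℝ) / q ^ 3 :=
      div_le_div_of_nonneg_left hM0.le (by positivity) hq3
    linarith [Real.add_one_le_exp ((M : ℝ) / q ^ 3)]
  have h3 : Pq M q ≤ Real.exp ((M : ℝ) * ((M : ℝ) / q ^ 3)) := by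
    rw [Real.exp_nat_mul]
    exact pow_le_pow_left₀ (by positivity) h1 M
  refine h3.trans ?_
  rw [Real.rpow_def_of_pos (by positivity), Real.log_pow]
  apply Real.exp_le_exp.2
  have h4 : (0.5 : ℝ) ≤ Real.log 2 := by linarith [Real.log_two_gt_d9]
  have h5 : (X : ℝ) * 0.5 ≤ X * Real.log 2 := mul_le_mul_of_nonneg_left h4 (Nat.cast_nonneg _)
  have e : 8192 * (M : ℝ) ^ 2 / q ^ 3 = 8192 * ((M : ℝ) * ((M : ℝ) / q ^ 3)) := by ring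
  linarith

theorem ev_abs2 : ∀ᶠ X : ℕ in atTop,
    64 * ((2 : ℝ) ^ X) ^ (1 / 2048 + -(3 / 2) : ℝ) ≤ ((2 : ℝ) ^ X) ^ (-(3 / 2) + 2 / 1024 : ℝ) ∧
    64 * ((2 : ℝ) ^ X) ^ (1 / 2048 + -(5 / 2) : ℝ) ≤ ((2 : ℝ) ^ X) ^ (-(5 / 2) + 2 / 1024 : ℝ) ∧
    2 * ((2 : ℝ) ^ X) ^ (1 / 4096 + -(1 / 2) : ℝ) ≤ ((2 : ℝ) ^ X) ^ (-(1 / 8) : ℝ) ∧
    4 * ((2 : ℝ) ^ X) ^ (1 / 4096 : ℝ) ≤ ((2 : ℝ) ^ X) ^ (1 : ℝ) := by
  have hxt : Tendsto (fun X : ℕ => (2 : ℝ) ^ X) atTop atTop :=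
    tendsto_pow_atTop_atTop_of_one_lt (by norm_num)
  filter_upwards [hxt.eventually (ev_rpow_le 64 (p := 1 / 2048 + -(3 / 2))
      (p' := -(3 / 2) + 2 / 1024) (by norm_num)),
    hxt.eventually (ev_rpow_le 64 (p := 1 / 2048 + -(5 / 2))
      (p' := -(5 / 2) + 2 / 1024) (by norm_num)),
    hxt.eventually (ev_rpow_le 2 (p := 1 / 4096 + -(1 / 2)) (p' := -(1 / 8)) (by norm_num)),
    hxt.eventually (ev_rpow_le 4 (p := 1 / 4096) (p' := 1) (by norm_num))] with X a b c d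
  exact ⟨a, b, c, d⟩

/-- **The base triple at the scales `2 ^ X`, `X ≥ C / q ^ 3`.** -/
theorem stBase_cube : ∃ C : ℝ, 1 ≤ C ∧ ∀ q : ℝ, 0 < q → q ≤ 1 / 2 → ∀ X : ℕ, C / q ^ 3 ≤ X →
    ∀ g h d r : ℕ, 1025 * X ≤ 1024 * g → 1024 * h ≤ 1278 * X →
      1024 * d ≤ 2045 * X → 8 * r ≤ X → 1 ≤ r →
      MA.HasTri q g (X + 1) h d r (Real.exp (-(2 : ℝ) ^ (X / 2))) := by
  obtain ⟨M1, hM1, hdom⟩ := H257.stDom
  obtain ⟨M4, hM4, hnear⟩ := H306.stNear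
  obtain ⟨N, hNall⟩ := eventually_atTop.mp (ev_abs.and ev_abs2)
  have hN0 : (0 : ℝ) ≤ N := Nat.cast_nonneg _
  have hA1 : (0 : ℝ) ≤ 8192 * (M1 : ℝ) ^ 2 := by positivity
  have hA4 : (0 : ℝ) ≤ 8192 * (M4 : ℝ) ^ 2 := by positivity
  refine ⟨8192 * (M1 : ℝ) ^ 2 + 8192 * (M4 : ℝ) ^ 2 + N + 2 ^ 47, by linarith,
    fun q h0 h2 X hX g h d r hg hh hd hr hr1 => ?_⟩
  have h1 : q < 1 := by linarith
  have hq3 : 0 < q ^ 3 := by positivity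
  have hq31 : q ^ 3 ≤ 1 := pow_le_one₀ h0.le h1.le
  have hmono : ∀ t : ℝ, t ≤ 8192 * (M1 : ℝ) ^ 2 + 8192 * (M4 : ℝ) ^ 2 + N + 2 ^ 47 →
      t / q ^ 3 ≤ X := fun t ht => (div_le_div_of_nonneg_right ht hq3.le).trans hX
  have hself : ∀ t : ℝ, 0 ≤ t → t ≤ t / q ^ 3 := fun t ht => by
    rw [le_div_iff₀ hq3]; exact mul_le_of_le_one_right ht hq31
  have k1 := Pq_le_rpow h0 h2 hM1 (hmono _ (by linarith))
  have k4 := Pq_le_rpow h0 h2 hM4 (hmono _ (by linarith))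
  have k47 : (2 : ℝ) ^ 47 / q ^ 3 ≤ X := hmono _ (by linarith)
  have kN : N ≤ X := by exact_mod_cast (hself _ hN0).trans (hmono N (by linarith))
  have k20 : (20 : ℝ) ≤ X := by
    have := (hself _ (by positivity)).trans k47
    linarith
  have ksq : 12 / q ^ 2 ≤ X := by
    refine le_trans ?_ (hmono 12 (by linarith))
    exact div_le_div_of_nonneg_left (by norm_num) hq3
      (pow_le_pow_of_le_one h0.le h1.le (by norm_num))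
  obtain ⟨⟨e5, e8, e9, e10, e11, e12, i1, -, -, -⟩, i2, i3, i4, i5⟩ := hNall X kN
  have hX2 : 2 ≤ X := by
    have : (2 : ℝ) ≤ X := by linarith
    exact_mod_cast this
  have hx0 : (0 : ℝ) < (2 : ℝ) ^ X := by positivity
  have c1 := Pq_one h0 h2 hM1
  have c4 := Pq_one h0 h2 hM4
  have hLx4 : ((2 ^ (X - 2) : ℕ) : ℝ) * 4 = (2 : ℝ) ^ X := by
    push_cast
    have : (2 : ℝ) ^ X = 2 ^ (X - 2) * 2 ^ 2 := by rw [← pow_add]; congr 1; omega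
    rw [this]; norm_num
  have hL1 : 1 ≤ 2 ^ (X - 2) := Nat.one_le_two_pow
  set ρ : ℝ := 1 - 2 * q ^ 2 / 3 with hρ
  have hq2 : 0 < q ^ 2 := by positivity
  have hq2' : q ^ 2 ≤ 1 / 4 := by nlinarith
  have hρ0 : 0 < ρ := by rw [hρ]; linarith
  have hlog : Real.log ρ ≤ -(2 * q ^ 2 / 3) := by
    have := Real.log_le_sub_one_of_pos hρ0
    rw [hρ] at this ⊢
    linarith
  set c : ℝ := -Real.log ρ / 4 with hc
  have hc6 : q ^ 2 / 6 ≤ c := by rw [hc]; linarith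
  have hc0 : 0 < c := lt_of_lt_of_le (by positivity) hc6
  have hpow : ∀ p m : ℝ, -p ≤ m → ((2 ^ (X - 2) : ℕ) : ℝ) ^ p ≤
      (4 : ℝ) ^ m * ((2 : ℝ) ^ X) ^ p := by
    intro p m hm
    have hLeq : ((2 ^ (X - 2) : ℕ) : ℝ) = (2 : ℝ) ^ X / 4 := by linarith
    rw [hLeq, Real.div_rpow hx0.le (by norm_num), div_eq_mul_inv, ← Real.rpow_neg (by norm_num),
      mul_comm]
    exact mul_le_mul_of_nonneg_right (Real.rpow_le_rpow_of_exponent_le (by norm_num) hm)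
      (Real.rpow_nonneg hx0.le _)
  have hprod : ∀ p : ℝ, ∀ D : ℝ, D ≤ 64 * ((2 : ℝ) ^ X) ^ p → 0 ≤ D →
      Pq M4 q * (Pq M1 q * D) ≤ 64 * ((2 : ℝ) ^ X) ^ (1 / 2048 + p) := by
    intro p D hD hD0
    have h5 : Pq M4 q * Pq M1 q ≤ ((2 : ℝ) ^ X) ^ (1 / 2048 : ℝ) := by
      refine (mul_le_mul k4 k1 (by linarith) (Real.rpow_nonneg hx0.le _)).trans (le_of_eq ?_)
      rw [← Real.rpow_add hx0]; norm_num
    calc Pq M4 q * (Pq M1 q * D) = (Pq M4 q * Pq M1 q) * D := by ring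
      _ ≤ ((2 : ℝ) ^ X) ^ (1 / 2048 : ℝ) * (64 * ((2 : ℝ) ^ X) ^ p) :=
          mul_le_mul h5 hD hD0 (Real.rpow_nonneg hx0.le _)
      _ = _ := by rw [Real.rpow_add hx0]; ring
  refine base_at h0 h1 (C := Pq M4 q) (ρ := ρ) (c := c)
    (δ1 := Pq M1 q * ((2 ^ (X - 2) : ℕ) : ℝ) ^ (-(3 / 2) : ℝ))
    (δ2 := Pq M1 q * ((2 ^ (X - 2) : ℕ) : ℝ) ^ (-(5 / 2) : ℝ))
    c4 hρ0 hc hc0 hL1 ?_ ?_ ?_ ?_ ?_ ?_ e5 ?_ ?_ e8 e9 e10 e11 e12 ?_ hX2 hg hh hd hr hr1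
  · rintro L rfl
    refine hnear q h0 h2 _ (k4.trans ?_)
    rw [Real.rpow_one] at i5
    linarith
  · exact mul_nonneg (by linarith) (Real.rpow_nonneg (Nat.cast_nonneg _) _)
  · exact mul_nonneg (by linarith) (Real.rpow_nonneg (Nat.cast_nonneg _) _)
  · rintro L rfl
    exact hdom q h0 h2 _ hL1
  · rintro L rfl
    refine over_cube h0 h2 ?_
    push_cast
    rw [Real.log_pow]
    have h4 : (0.5 : ℝ) ≤ Real.log 2 := by linarith [Real.log_two_gt_d9]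
    have h5 : ((X - 2 : ℕ) : ℝ) = X - 2 := by rw [Nat.cast_sub hX2]; norm_num
    rw [h5]
    have h6 : ((X : ℝ) - 2) * 0.5 ≤ (X - 2) * Real.log 2 :=
      mul_le_mul_of_nonneg_left h4 (by linarith)
    have e : (2 : ℝ) ^ 47 / q ^ 3 = 4 * (2 ^ 45 / q ^ 3) := by ring
    linarith
  · refine le_trans (mul_le_mul_of_nonneg_right ?_ (Real.rpow_nonneg hx0.le _)) i1
    refine le_trans ?_ ksq
    rw [div_le_div_iff₀ hc0 hq2]
    linarith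
  · refine le_trans (hprod _ _ ?_ (Real.rpow_nonneg (Nat.cast_nonneg _) _)) i2
    have h3 := hpow (-(3 / 2)) 3 (by norm_num)
    have h4 : (4 : ℝ) ^ (3 : ℝ) = 64 := by norm_num
    rwa [h4] at h3
  · refine le_trans (hprod _ _ ?_ (Real.rpow_nonneg (Nat.cast_nonneg _) _)) i3
    have h3 := hpow (-(5 / 2)) 3 (by norm_num)
    have h4 : (4 : ℝ) ^ (3 : ℝ) = 64 := by norm_num
    rwa [h4] at h3
  · refine le_trans ?_ i4
    rw [Real.rpow_add hx0, ← mul_assoc]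
    refine mul_le_mul_of_nonneg_right ?_ (Real.rpow_nonneg hx0.le _)
    linarith

end Vale.Agent.P321W
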