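import Vale.Agent.P321.Defs

/-!
Total variation distance of two laws, and the distance of the trace laws of a hardest pair.
-/

namespace Vale.Agent.P321W

open Vale.Agent.P321
open scoped unitInterval ENNReal

/-- The total variation distance of two laws: the supremum over all events `A` of
`μ(A) - ν(A)` (the subtraction of `ℝ≥0∞` is truncated at `0`). -/
noncomputable def tv {α : Type} (μ ν : PMF α) : ℝ≥0∞ :=
  ⨆ A : Set α, (μ.toOuterMeasure A - ν.toOuterMeasure A)

/-- The least total variation distance between the trace laws `D_q(x)` and `D_q(y)` of two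
distinct strings `x`, `y` of length `n`. -/
noncomputable def minTV (q : I) (n : ℕ) : ℝ≥0∞ :=
  ⨅ (x : Fin n → Bool) (y : Fin n → Bool) (_ : x ≠ y),
    tv (traceLaw q (List.ofFn x)) (traceLaw q (List.ofFn y))

end Vale.Agent.P321W
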