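import Vale.Agent.P321.Bdl.B8

/-!
Sharp invisibility of the marked letters: `K` cells of half length `L` are close to their blank
version as soon as `2 ^ 52 * K ≤ q ^ 4 * L`.
-/

namespace Vale.Agent.P321W

open Finset Polynomial Vale.Agent.P321 Vale.Agent.P321.Cr Vale.Agent.P321.Lt

theorem cc_sq_le {q : ℝ} (hq0 : 0 < q) : cc (q ^ 2) ≤ 3 / (2 * q) := by
  unfold cc
  have h1 : 4 / 3 * q ≤ Real.sqrt (2 * q ^ 2) := by
    apply Real.le_sqrt_of_sq_le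
    nlinarith [sq_nonneg q]
  rw [div_le_div_iff₀ (lt_of_lt_of_le (by positivity) h1) (by positivity)]
  linarith

theorem kap_nu {q : ℝ} (hq0 : 0 < q) : kap (nu q) 0 = 1 / q := by
  have h : nu q 0 = q / (1 + q) := by simp [nu]
  rw [kap, h]
  field_simp
  ring

theorem prob_Eb {q : ℝ} (hq0 : 0 ≤ q) (hq1 : q ≤ 1) : MA.Prob (Eb q) := by
  rw [Eb_eq]
  exact prob_Us hq0 hq1 (by linarith) (by linarith)

theorem blank_nf (q : ℝ) (L k : ℕ) :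
    al (nu q) (cn (1 - q ^ 2) ^ L * cn (1 - q) ^ k) = U q ^ L * Eb q ^ k := by
  rw [al, map_mul, map_pow, map_pow]
  have h1 : ∀ t, aeval (NN (nu q)) (cn t) = Us q t := fun t => al_cn q t
  rw [h1, h1, Eb_eq, Us_U]

theorem commute_U_Eb (q : ℝ) : Commute (U q) (Eb q) := by
  have h1 := blank_nf q 1 1
  have h2 : al (nu q) (cn (1 - q) * cn (1 - q ^ 2)) = Eb q * U q := by
    rw [al_mul, al_cn, al_cn, Eb_eq, Us_U]
  rw [pow_one, pow_one, pow_one, pow_one, mul_comm (cn (1 - q ^ 2)), h2] at h1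
  exact h1.symm

theorem RR_le {q : ℝ} (hq0 : 0 < q) (hq : q ≤ 1 / 2) {L : ℕ} (hL : 1 ≤ L) :
    RR (q ^ 2) (1 - q ^ 2) L ≤ 35 / (q * Real.sqrt L) := by
  have hL0 : (0 : ℝ) < L := by exact_mod_cast hL
  have hsL0 : 0 < Real.sqrt (L : ℝ) := Real.sqrt_pos.mpr hL0
  have hq2 : q ^ 2 ≤ 1 / 4 := by nlinarith
  have hc := cc_sq_le hq0
  have hc0 := cc_pos (show 0 < q ^ 2 by positivity)
  obtain ⟨s, hs⟩ : ∃ s : ℝ, s = 1 - q ^ 2 := ⟨_, rfl⟩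
  have hs34 : 3 / 4 ≤ s := by rw [hs]; linarith
  rw [← hs]
  unfold RR
  have h1 : 1 + 12 / s ^ 2 ≤ 23 := by
    have : 12 / s ^ 2 ≤ 22 := by
      rw [div_le_iff₀ (by positivity)]
      nlinarith
    linarith
  have h2 : cc (q ^ 2) * (1 + 12 / s ^ 2) ≤ 35 / q := by
    calc cc (q ^ 2) * (1 + 12 / s ^ 2) ≤ 3 / (2 * q) * 23 :=
          mul_le_mul hc h1 (by positivity) (by positivity)
      _ = 34.5 / q := by field_simp; norm_num
      _ ≤ 35 / q := by gcongr; norm_num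
  calc cc (q ^ 2) * (1 + 12 / s ^ 2) / Real.sqrt L ≤ 35 / q / Real.sqrt L := by gcongr
    _ = 35 / (q * Real.sqrt L) := by rw [div_div]

theorem MR_le {q : ℝ} (hq0 : 0 < q) (hq : q ≤ 1 / 2) {L : ℕ} (hL : 1 ≤ L) :
    24 * ((1 - q) ^ 2 * kap (nu q) 0) * RR (q ^ 2) (1 - q ^ 2) L
      ≤ 840 / (q ^ 2 * Real.sqrt L) := by
  have hL0 : (0 : ℝ) < L := by exact_mod_cast hL
  have hsL0 : 0 < Real.sqrt (L : ℝ) := Real.sqrt_pos.mpr hL0
  have hM1 : (1 - q) ^ 2 * kap (nu q) 0 ≤ 1 / q := by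
    rw [kap_nu hq0]
    have : (1 - q) ^ 2 ≤ 1 := by nlinarith
    exact mul_le_of_le_one_left (by positivity) this
  have hRR := RR_le hq0 hq hL
  have hc0 := cc_pos (show 0 < q ^ 2 by positivity)
  have hRR0 : 0 ≤ RR (q ^ 2) (1 - q ^ 2) L := by unfold RR; positivity
  calc 24 * ((1 - q) ^ 2 * kap (nu q) 0) * RR (q ^ 2) (1 - q ^ 2) L
      ≤ 24 * (1 / q) * (35 / (q * Real.sqrt L)) := by gcongr
    _ = 840 / (q ^ 2 * Real.sqrt L) := by field_simp; norm_num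

/-- numerical consequences of the smallness hypothesis -/
theorem small_facts {q : ℝ} (hq0 : 0 < q) (hq : q ≤ 1 / 2) {K L : ℕ} (hK : 1 ≤ K)
    (hsm : (2 : ℝ) ^ 52 * K ≤ q ^ 4 * L) :
    K ≤ L ∧ Real.sqrt K / (q ^ 2 * Real.sqrt L) ≤ 1 / 2 ^ 26 ∧ 1 ≤ q * Real.sqrt L := by
  have hKR : (1 : ℝ) ≤ K := by exact_mod_cast hK
  have hL0' : (0 : ℝ) ≤ L := Nat.cast_nonneg _
  have hq4 : q ^ 4 ≤ 1 := pow_le_one₀ hq0.le (by linarith)
  have hq4L : q ^ 4 * L ≤ L := mul_le_of_le_one_left hL0' hq4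
  have hKL : (K : ℝ) ≤ L := by linarith
  have hL0 : (0 : ℝ) < L := by linarith
  have hsL0 : 0 < Real.sqrt (L : ℝ) := Real.sqrt_pos.mpr hL0
  have hsK1 : 1 ≤ Real.sqrt (K : ℝ) := Real.one_le_sqrt.mpr hKR
  have hKs : (2 : ℝ) ^ 26 * Real.sqrt K ≤ q ^ 2 * Real.sqrt L := by
    refine (abs_le_of_sq_le_sq' ?_ (by positivity)).2
    rw [mul_pow, mul_pow, Real.sq_sqrt hL0.le, Real.sq_sqrt (by linarith), ← pow_mul, ← pow_mul]
    exact hsm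
  refine ⟨by exact_mod_cast hKL, ?_, ?_⟩
  · rw [div_le_div_iff₀ (by positivity) (by positivity)]
    linarith
  · have h1 : q ^ 2 * Real.sqrt L ≤ q * Real.sqrt L := by
      have : q ^ 2 ≤ q := by nlinarith
      gcongr
    linarith

theorem ip_sharp {q : ℝ} (hq0 : 0 < q) (hq : q ≤ 1 / 2) {K L : ℕ} (hK : 1 ≤ K)
    (hsm : (2 : ℝ) ^ 52 * K ≤ q ^ 4 * L) :
    ip (nu q) (cell q L L ^ K - U q ^ (2 * L * K) * Eb q ^ K)
      (cell q L L ^ K - U q ^ (2 * L * K) * Eb q ^ K) ≤ 1260 / (q ^ 3 * Real.sqrt L ^ 2) := by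
  obtain ⟨hKL, hy, -⟩ := small_facts hq0 hq hK hsm
  have hq1 : q < 1 := by linarith
  have hν := law_nu hq0 hq1
  have hL1 : 1 ≤ L := hK.trans hKL
  have hL0 : (0 : ℝ) < L := by exact_mod_cast hL1
  have hsL0 : 0 < Real.sqrt (L : ℝ) := Real.sqrt_pos.mpr hL0
  have hq2 : q ^ 2 ≤ 1 / 4 := by nlinarith
  have hq20 : 0 < q ^ 2 := by positivity
  have hpar : Par (1 - q ^ 2) (1 - q) (q ^ 2) L L :=
    ⟨hq20, by linarith, by linarith, by linarith, by linarith, hL1, le_rfl, by omega⟩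
  have hc := cc_sq_le hq0
  have hc0 := cc_pos hq20
  have hMR := MR_le hq0 hq hL1
  have hsmall : 24 * ((1 - q) ^ 2 * kap (nu q) 0) * RR (q ^ 2) (1 - q ^ 2) L * Real.sqrt K
      ≤ 1 := by
    calc 24 * ((1 - q) ^ 2 * kap (nu q) 0) * RR (q ^ 2) (1 - q ^ 2) L * Real.sqrt K
        ≤ 840 / (q ^ 2 * Real.sqrt L) * Real.sqrt K := by gcongr
      _ = 840 * (Real.sqrt K / (q ^ 2 * Real.sqrt L)) := by ring
      _ ≤ 840 * (1 / 2 ^ 26) := by gcongr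
      _ ≤ 1 := by norm_num
  have h := ip_diff_le (a := 0) hν hpar hK hKL hsmall
  have eG : cell q L L ^ K = al (nu q) (cn (1 - q ^ 2) ^ L) * EE (nu q) (1 - q) 0 *
      HH (nu q) (1 - q ^ 2) (1 - q) 0 L (K - 1) := by
    rw [← cell_pow_eq, Nat.sub_add_cancel hK, Us_U]
    rfl
  rw [← eG, blank_nf] at h
  refine h.trans ?_
  calc 24 * ((1 - q) ^ 2 * kap (nu q) 0) * RR (q ^ 2) (1 - q ^ 2) L * (cc (q ^ 2) / Real.sqrt L)
      ≤ 840 / (q ^ 2 * Real.sqrt L) * (3 / (2 * q) / Real.sqrt L) := by gcongr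
    _ = 1260 / (q ^ 3 * Real.sqrt L ^ 2) := by field_simp; norm_num

theorem var_le {q x K : ℝ} (hq0 : 0 < q) (hq : q ≤ 1 / 2) (hx : 1 ≤ q ^ 2 * x) (hK : 0 < K) :
    K * (2 * x * ((1 - q ^ 2) * (1 - (1 - q ^ 2))) + (1 - q) * (1 - (1 - q))) /
      (256 * (q ^ 2 * x * K)) ≤ 3 / 256 := by
  have hx0 : 0 < x := by
    by_contra hn
    have : q ^ 2 * x ≤ 0 := mul_nonpos_of_nonneg_of_nonpos (sq_nonneg q) (not_lt.mp hn)
    linarith
  rw [div_le_div_iff₀ (by positivity) (by norm_num)]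
  have e2 : (1 - q ^ 2) * (1 - (1 - q ^ 2)) ≤ q ^ 2 := by nlinarith [sq_nonneg (q ^ 2)]
  have e3 : (1 - q) * (1 - (1 - q)) ≤ q ^ 2 * x := by nlinarith
  have e4 : 2 * x * ((1 - q ^ 2) * (1 - (1 - q ^ 2))) ≤ 2 * x * q ^ 2 :=
    mul_le_mul_of_nonneg_left e2 (by positivity)
  have e5 : K * (2 * x * ((1 - q ^ 2) * (1 - (1 - q ^ 2))) + (1 - q) * (1 - (1 - q))) ≤
      K * (3 * (q ^ 2 * x)) := mul_le_mul_of_nonneg_left (by linarith) hK.le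
  linarith

/-- **Sharp invisibility.** -/
theorem inv_sharp {q : ℝ} (hq0 : 0 < q) (hq : q ≤ 1 / 2) {K L : ℕ} (hK : 1 ≤ K)
    (hsm : (2 : ℝ) ^ 52 * K ≤ q ^ 4 * L) :
    MA.l1 (cell q L L ^ K - U q ^ (2 * L * K) * Eb q ^ K) ≤ 1 / 16 := by
  obtain ⟨hKL, hy, hqL⟩ := small_facts hq0 hq hK hsm
  have hq1 : q < 1 := by linarith
  have hν := law_nu hq0 hq1
  have hKR : (1 : ℝ) ≤ K := by exact_mod_cast hK
  have hL1 : 1 ≤ L := hK.trans hKL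
  have hL0 : (0 : ℝ) < L := by exact_mod_cast hL1
  have hsL0 : 0 < Real.sqrt (L : ℝ) := Real.sqrt_pos.mpr hL0
  have hsK1 : 1 ≤ Real.sqrt (K : ℝ) := Real.one_le_sqrt.mpr hKR
  have hsL2 : Real.sqrt (L : ℝ) ^ 2 = L := Real.sq_sqrt hL0.le
  have hsK2 : Real.sqrt (K : ℝ) ^ 2 = K := Real.sq_sqrt (by linarith)
  have hq2 : q ^ 2 ≤ 1 / 4 := by nlinarith
  have hq20 : 0 < q ^ 2 := by positivity
  have hpU : MA.Prob (U q) := prob_U hq0.le hq1.le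
  have hpE : MA.Prob (Eb q) := prob_Eb hq0.le hq1.le
  have hGp : MA.Prob (cell q L L ^ K) := MA.prob_pow (prob_cell hq0.le hq1.le L L) K
  have hGp' : MA.Prob (U q ^ (2 * L * K) * Eb q ^ K) :=
    MA.prob_mul (MA.prob_pow hpU _) (MA.prob_pow hpE _)
  have hip := ip_sharp hq0 hq hK hsm
  have hgU : gen (U q) = cn (1 - q ^ 2) := by rw [← Us_U, gen_Us hq0.le]
  have hgG : gen (cell q L L ^ K) = (cn (1 - q ^ 2) ^ (2 * L) * cn (1 - q)) ^ K := by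
    rw [map_pow, gen_cell, hgU, gen_E, two_mul]
  have hgG' : gen (U q ^ (2 * L * K) * Eb q ^ K) = (cn (1 - q ^ 2) ^ (2 * L) * cn (1 - q)) ^ K := by
    rw [map_mul, map_pow, map_pow, hgU, Eb_eq, gen_Us hq0.le, mul_pow, ← pow_mul]
  have hs0 : 0 ≤ 1 - q ^ 2 := by linarith
  have hp0 : 0 ≤ 1 - q := by linarith
  have hPB := (((PB.cn hs0 (by linarith)).pow (2 * L)).mul (PB.cn hp0 (by linarith))).pow K
  have ha1 : 1 ≤ 16 * (q * Real.sqrt L) * Real.sqrt K :=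
    one_le_mul_of_one_le_of_one_le (by linarith) hsK1
  have hmain := l1_diff_le hν hGp.1 hGp'.1 hPB hgG hgG' ha1 (by positivity) hip
  refine hmain.trans ?_
  have t1 : Real.sqrt (3 * (16 * (q * Real.sqrt L) * Real.sqrt K) *
      (1260 / (q ^ 3 * Real.sqrt L ^ 2))) ≤ 1 / 32 := by
    apply Real.sqrt_le_iff.mpr
    refine ⟨by norm_num, ?_⟩
    calc 3 * (16 * (q * Real.sqrt L) * Real.sqrt K) * (1260 / (q ^ 3 * Real.sqrt L ^ 2))
        = 60480 * (Real.sqrt K / (q ^ 2 * Real.sqrt L)) := by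
          field_simp; norm_num
      _ ≤ 60480 * (1 / 2 ^ 26) := by gcongr
      _ ≤ (1 / 32) ^ 2 := by norm_num
  have e1 : (16 * (q * Real.sqrt L) * Real.sqrt K) ^ 2 = 256 * (q ^ 2 * L * K) := by
    rw [mul_pow, mul_pow, mul_pow, hsL2, hsK2]; ring
  have hx : 1 ≤ q ^ 2 * (L : ℝ) := by
    have h2 : (q * Real.sqrt L) ^ 2 = q ^ 2 * L := by rw [mul_pow, hsL2]
    rw [← h2]
    exact one_le_pow₀ hqL
  have t2 := var_le hq0 hq hx (show (0 : ℝ) < K by linarith)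
  rw [e1]
  push_cast
  linarith

end Vale.Agent.P321W
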