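import Vale.Agent.P321W.UBase
import Vale.Agent.P321W.Defs
import Vale.Agent.P321Z.Lower

/-!
The lower bound in the range `q ^ 3 log n ≥ C`.
-/

namespace Vale.Agent.P321W

open Vale.Agent.P321 Vale.Agent.P321.LB2 Vale.Agent.P321Z Filter Topology
open scoped unitInterval ENNReal

/-- close pairs as soon as `q ^ 3 L ≥ C` -/
theorem close_cube : ∃ C c1 : ℝ, 1 ≤ C ∧ 0 < c1 ∧ ∀ q : ℝ, 0 < q → q ≤ 1 / 2 → ∀ L : ℝ,
    C ≤ q ^ 3 * L →
    Close q (Real.exp (L / 2)) (Real.exp (-(c1 * L * (q ^ 3 * L) ^ (1 / 46 : ℝ)))) := by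
  obtain ⟨R, a1, hR1, hcov⟩ := cover_uni (κ := 1 / 46) (by norm_num) (by norm_num) (by norm_num)
    num_A' (SuperLU.of_round (by norm_num) (by norm_num) (by norm_num) (by norm_num) roundU.log)
  obtain ⟨Cb, hCb1, hbase⟩ := base_uni_cube (1 / 50000) R (by norm_num)
  obtain ⟨aT, haT⟩ := Filter.eventually_atTop.1
    (Real.tendsto_exp_atTop.eventually (St_close (1 / 50000) (by norm_num)))
  obtain ⟨C1, hC1⟩ : ∃ C1 : ℝ, C1 = Cb + |a1| + |aT| + R ^ (46 : ℕ) := ⟨_, rfl⟩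
  have p1 := le_abs_self a1
  have p2 := le_abs_self aT
  have p3 := abs_nonneg a1
  have p4 := abs_nonneg aT
  have p5 : (0 : ℝ) ≤ R ^ (46 : ℕ) := by positivity
  have hC11 : 1 ≤ C1 := by linarith
  have hCC : 1 ≤ Cb * C1 := one_le_mul_of_one_le_of_one_le hCb1 hC11
  set c1 : ℝ := R / ((Cb * C1) ^ (1 / 46 : ℝ) * (4 * (1083 / 10)) ^ (1 + 1 / 46 : ℝ)) with hc1
  have hc10 : 0 < c1 := by positivity
  refine ⟨4 * (Cb * C1), c1, by linarith, hc10, fun q h0 h2 L hL => ?_⟩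
  have hq3 : 0 < q ^ 3 := by positivity
  have hq31 : q ^ 3 ≤ 1 := pow_le_one₀ h0.le (by linarith)
  have hL0 : 0 < L := by
    by_contra hn
    have : q ^ 3 * L ≤ 0 := mul_nonpos_of_nonneg_of_nonpos hq3.le (not_lt.mp hn)
    linarith
  have ht : C1 ≤ C1 / q ^ 3 := by
    rw [le_div_iff₀ hq3]; exact mul_le_of_le_one_right (by linarith) hq31
  obtain ⟨a0, ha0l, ha0u, hSt0⟩ := hbase q h0 h2 (C1 / q ^ 3)
    (div_le_div_of_nonneg_right (by linarith) hq3.le)
  have ha01 : 1 ≤ a0 := by linarith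
  have ha0p : 0 < a0 := by linarith
  have ha0u' : a0 ≤ Cb * C1 / q ^ 3 := by rwa [mul_div_assoc]
  have ha0L : a0 ≤ L / 4 := by
    refine ha0u'.trans ?_
    rw [div_le_div_iff₀ hq3 (by norm_num)]
    linarith
  have hRa : R ≤ a0 ^ (1 / 46 : ℝ) := by
    calc R = (R ^ (46 : ℕ)) ^ (1 / 46 : ℝ) := by
          rw [← Real.rpow_natCast, ← Real.rpow_mul (by linarith)]
          norm_num
      _ ≤ a0 ^ (1 / 46 : ℝ) := Real.rpow_le_rpow p5 (by linarith) (by norm_num)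
  obtain ⟨a, b1, b2, b3, u, v, hS⟩ := hcov q h0.le (by linarith) a0 (by linarith) ha01 hRa
    hSt0 (L / 4) ha0L
  have hsz : Real.exp a ^ (2 : ℝ) ≤ Real.exp (L / 2) := by
    rw [← Real.exp_mul]
    exact Real.exp_le_exp.2 (by linarith)
  have haL : L ≤ 4 * (1083 / 10) * a := by linarith
  have hapos : 0 < a := by linarith
  obtain ⟨x, y, k1, k2, k3, k4⟩ := haT a (by linarith) _ _ _ u v hS
  refine ⟨x, y, k1, k2, k3.trans hsz, k4.trans (Real.exp_le_exp.2 (neg_le_neg ?_))⟩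
  have f1 : (q ^ 3 * L) ^ (1 / 46 : ℝ) * a0 ^ (1 / 46 : ℝ)
      ≤ (Cb * C1) ^ (1 / 46 : ℝ) * L ^ (1 / 46 : ℝ) := by
    rw [← Real.mul_rpow (by positivity) ha0p.le, ← Real.mul_rpow (by positivity) hL0.le]
    refine Real.rpow_le_rpow (by positivity) ?_ (by norm_num)
    rw [le_div_iff₀ hq3] at ha0u'
    have := mul_le_mul_of_nonneg_right ha0u' hL0.le
    linarith
  have f2 : L ^ (1 + 1 / 46 : ℝ) ≤ (4 * (1083 / 10)) ^ (1 + 1 / 46 : ℝ) *
      a ^ (1 + 1 / 46 : ℝ) := by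
    rw [← Real.mul_rpow (by norm_num) hapos.le]
    exact Real.rpow_le_rpow hL0.le haL (by norm_num)
  have f3 : L * L ^ (1 / 46 : ℝ) = L ^ (1 + 1 / 46 : ℝ) := by
    rw [Real.rpow_add hL0, Real.rpow_one]
  have hd1 : 0 < a0 ^ (1 / 46 : ℝ) := Real.rpow_pos_of_pos ha0p _
  have hd2 : 0 < (Cb * C1) ^ (1 / 46 : ℝ) * (4 * (1083 / 10)) ^ (1 + 1 / 46 : ℝ) := by positivity
  rw [hc1, div_mul_eq_mul_div, div_mul_eq_mul_div, div_mul_eq_mul_div, div_le_div_iff₀ hd2 hd1]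
  have hR0' : 0 < R := by linarith
  calc R * L * (q ^ 3 * L) ^ (1 / 46 : ℝ) * a0 ^ (1 / 46 : ℝ)
      = R * L * ((q ^ 3 * L) ^ (1 / 46 : ℝ) * a0 ^ (1 / 46 : ℝ)) := by ring
    _ ≤ R * L * ((Cb * C1) ^ (1 / 46 : ℝ) * L ^ (1 / 46 : ℝ)) := by gcongr
    _ = R * (Cb * C1) ^ (1 / 46 : ℝ) * L ^ (1 + 1 / 46 : ℝ) := by rw [← f3]; ring
    _ ≤ R * (Cb * C1) ^ (1 / 46 : ℝ) *
          ((4 * (1083 / 10)) ^ (1 + 1 / 46 : ℝ) * a ^ (1 + 1 / 46 : ℝ)) := by gcongr
    _ = _ := by ring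

theorem tv_bind_le {α β : Type} (P Q : PMF α) (K : α → PMF β) :
    tv (P.bind K) (Q.bind K) ≤ ∑' w, (P w - Q w) := by
  refine iSup_le fun A => ?_
  rw [tsub_le_iff_left, PMF.toOuterMeasure_bind_apply, PMF.toOuterMeasure_bind_apply,
    ← ENNReal.tsum_add]
  refine ENNReal.tsum_le_tsum fun w => ?_
  have h1 : (K w).toOuterMeasure A ≤ 1 := by
    rw [← ((K w).toOuterMeasure_apply_eq_one_iff Set.univ).2 (Set.subset_univ _)]
    exact (K w).toOuterMeasure.mono (Set.subset_univ _)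
  calc P w * (K w).toOuterMeasure A ≤ (Q w + (P w - Q w)) * (K w).toOuterMeasure A := by
        gcongr
        exact le_add_tsub
    _ = Q w * (K w).toOuterMeasure A + (P w - Q w) * (K w).toOuterMeasure A := add_mul _ _ _
    _ ≤ Q w * (K w).toOuterMeasure A + (P w - Q w) * 1 := by gcongr
    _ = _ := by rw [mul_one]

theorem minTV_le_of_close {q q' : I} (h : (q : ℝ) ≤ q') (hq : (q : ℝ) < 1) {ℓ δ : ℝ}
    (hc : Close q ℓ δ) {n : ℕ} (hn : ℓ ≤ n) : minTV q' n ≤ ENNReal.ofReal δ := by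
  obtain ⟨x, y, hne, hlen, hl, hδ⟩ := hc
  have hxn : x.length ≤ n := by exact_mod_cast hl.trans hn
  have h0 : 0 < 1 - (q : ℝ) := by linarith
  have hs0 : 0 ≤ ((q' : ℝ) - q) / (1 - q) := div_nonneg (by linarith) h0.le
  have hs1 : ((q' : ℝ) - q) / (1 - q) ≤ 1 := by
    rw [div_le_one h0]
    linarith [q'.2.2]
  set r : I := ⟨((q' : ℝ) - q) / (1 - q), hs0, hs1⟩ with hr
  have hK : ∀ x : List Bool, traceLaw q' x = (traceLaw q x).bind (traceLaw r) := fun x =>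
    R3.H101.traceLaw_thin (by rw [hr]; simp only; field_simp; ring) x
  set pad : List Bool := List.replicate (n - x.length) false with hpad
  have hu : (x ++ pad).length = n := by
    rw [List.length_append, hpad, List.length_replicate]; omega
  have hv : (y ++ pad).length = n := by
    rw [List.length_append, hpad, List.length_replicate, ← hlen]; omega
  have e1 : List.ofFn (fun i : Fin n => (x ++ pad).get (i.cast hu.symm)) = x ++ pad := by
    refine List.ext_get (by rw [List.length_ofFn, hu]) fun i h1 h2 => ?_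
    simp
  have e2 : List.ofFn (fun i : Fin n => (y ++ pad).get (i.cast hv.symm)) = y ++ pad := by
    refine List.ext_get (by rw [List.length_ofFn, hv]) fun i h1 h2 => ?_
    simp
  have hne' : (fun i : Fin n => (y ++ pad).get (i.cast hv.symm)) ≠
      (fun i : Fin n => (x ++ pad).get (i.cast hu.symm)) := by
    intro e
    have e3 := congrArg List.ofFn e
    rw [e1, e2] at e3
    exact hne (List.append_cancel_right e3).symm
  unfold minTV
  refine iInf_le_of_le (fun i : Fin n => (y ++ pad).get (i.cast hv.symm)) ?_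
  refine iInf_le_of_le (fun i : Fin n => (x ++ pad).get (i.cast hu.symm)) ?_
  refine iInf_le_of_le hne' ?_
  rw [e1, e2, hK, hK]
  refine (tv_bind_le _ _ _).trans ((tsum_sub_le q _ _).trans (ENNReal.ofReal_le_ofReal ?_))
  rw [W_append, W_append, ← sub_mul]
  exact (MA.l1_mul_prob_right (W_prob q.2.1 q.2.2 pad)).trans hδ

/-- from a close pair to the number of traces -/
theorem Ts_of_close (q : I) {L B δ s : ℝ} {n : ℕ} (hn : Real.exp L = n)
    (hcl : Close q (Real.exp (L / 2)) δ) (hδ : δ ≤ Real.exp (-(5 * B))) (hB10 : 10 ≤ B)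
    (hBL : 24 * B ≤ L ^ 2) (hL0 : 0 ≤ L) (hs : Real.exp (-B) ≤ s) :
    (⌈Real.exp B⌉₊ : ℕ∞) ≤ Ts q s n := by
  set k : ℕ := ⌈2 * B + 2⌉₊ with hk
  have hk1 : 2 * B + 2 ≤ k := Nat.le_ceil _
  have hk2 : (k : ℝ) ≤ 3 * B := by
    have := (Nat.ceil_lt_add_one (show 0 ≤ 2 * B + 2 by linarith)).le
    linarith
  have hkn : (k : ℝ) * Real.exp (L / 2) ≤ n := by
    have e1 : (n : ℝ) = Real.exp (L / 2) * Real.exp (L / 2) := by
      rw [← Real.exp_add, add_halves, hn]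
    rw [e1]
    refine mul_le_mul_of_nonneg_right ?_ (Real.exp_pos _).le
    have := Real.quadratic_le_exp_of_nonneg (show 0 ≤ L / 2 by linarith)
    linarith
  unfold Ts
  refine le_iInf₂ fun m hm => ?_
  obtain ⟨est, hest⟩ := hm
  have key := succ_le_of_close q hcl hkn hest
  have hfin : Real.exp B ≤ m := by
    have a1 : (1 / 2 : ℝ) ^ k ≤ Real.exp (-B) / 2 := by
      have b1 : (1 / 2 : ℝ) ≤ Real.exp (-(1 / 2)) := by
        have := Real.add_one_le_exp (-(1 / 2) : ℝ)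
        linarith
      have b2 : Real.exp (-1) ≤ 1 / 2 := by
        rw [Real.exp_neg, ← one_div]
        apply one_div_le_one_div_of_le (by norm_num)
        have := Real.add_one_le_exp (1 : ℝ)
        linarith
      calc (1 / 2 : ℝ) ^ k ≤ Real.exp (-(1 / 2)) ^ k := pow_le_pow_left₀ (by norm_num) b1 k
        _ = Real.exp (k * -(1 / 2)) := by rw [Real.exp_nat_mul]
        _ ≤ Real.exp (-B + -1) := Real.exp_le_exp.2 (by linarith)
        _ = Real.exp (-B) * Real.exp (-1) := Real.exp_add _ _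
        _ ≤ Real.exp (-B) * (1 / 2) := by gcongr
        _ = Real.exp (-B) / 2 := by ring
    have a3 : (k : ℝ) ≤ Real.exp (2 * B) := by
      have := Real.add_one_le_exp B
      have e : Real.exp (2 * B) = Real.exp B * Real.exp B := by rw [← Real.exp_add]; ring_nf
      rw [e]
      nlinarith
    have a4 : (k : ℝ) * δ ≤ Real.exp (-(3 * B)) := by
      calc (k : ℝ) * δ ≤ (k : ℝ) * Real.exp (-(5 * B)) := by gcongr
        _ ≤ Real.exp (2 * B) * Real.exp (-(5 * B)) := by gcongr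
        _ = Real.exp (-(3 * B)) := by rw [← Real.exp_add]; ring_nf
    have a5 : Real.exp (-B) / 2 ≤ m * Real.exp (-(3 * B)) := by
      have := mul_le_mul_of_nonneg_left a4 (Nat.cast_nonneg m : (0 : ℝ) ≤ m)
      linarith
    have a6 : Real.exp (-B) = Real.exp B * Real.exp B * Real.exp (-(3 * B)) := by
      rw [← Real.exp_add, ← Real.exp_add]; ring_nf
    have a7 : 2 ≤ Real.exp B := by
      have := Real.add_one_le_exp B
      linarith
    have a8 : 0 < Real.exp (-(3 * B)) := Real.exp_pos _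
    rw [a6] at a5
    have a9 : Real.exp B * Real.exp B / 2 ≤ m := by
      apply le_of_mul_le_mul_right _ a8
      linarith
    nlinarith
  exact_mod_cast Nat.ceil_le.2 hfin

/-- **The lower bound for `q ^ 3 log n ≥ C`.** -/
theorem lower_cube : ∃ c C : ℝ, 0 < c ∧ ∀ (n : ℕ) (q : I), C ≤ (q : ℝ) ^ 3 * Real.log n →
    minTV q n ≤ ENNReal.ofReal (Real.exp
      (-(c * Real.log n * ((q : ℝ) ^ 3 * Real.log n) ^ (1 / 46 : ℝ)))) ∧
    ∀ s : ℝ, Real.exp (-(c * Real.log n * ((q : ℝ) ^ 3 * Real.log n) ^ (1 / 46 : ℝ))) ≤ s →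
      (⌈Real.exp (c * Real.log n * ((q : ℝ) ^ 3 * Real.log n) ^ (1 / 46 : ℝ))⌉₊ : ℕ∞)
        ≤ Ts q s n := by
  obtain ⟨C, c1, hC1, hc1, hcl⟩ := close_cube
  obtain ⟨c, hc⟩ : ∃ c : ℝ, c = min (c1 / 40) (1 / 24) := ⟨_, rfl⟩
  have hc0 : 0 < c := by rw [hc]; positivity
  have hca : c ≤ c1 / 40 := by rw [hc]; exact min_le_left _ _
  have hcb : c ≤ 1 / 24 := by rw [hc]; exact min_le_right _ _
  have h10 : 0 < 10 / c := by positivity
  refine ⟨c, 8 * C + 10 / c, hc0, fun n q hq => ?_⟩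
  set L : ℝ := Real.log (n : ℝ) with hL
  have hL0' : 0 ≤ L := Real.log_natCast_nonneg n
  have hq0 : 0 < (q : ℝ) := by
    rcases eq_or_lt_of_le q.2.1 with h | h
    · rw [← h] at hq
      norm_num at hq
      linarith
    · exact h
  have hq31 : (q : ℝ) ^ 3 ≤ 1 := pow_le_one₀ hq0.le q.2.2
  have hxL : (q : ℝ) ^ 3 * L ≤ L := mul_le_of_le_one_left hL0' hq31
  have hx1 : 1 ≤ (q : ℝ) ^ 3 * L := by linarith
  have hL1 : 1 ≤ L := hx1.trans hxL
  have hn0 : (0 : ℝ) < n := by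
    rcases Nat.eq_zero_or_pos n with h | h
    · rw [hL, h, Nat.cast_zero, Real.log_zero] at hL1
      linarith
    · exact_mod_cast h
  have hn : Real.exp L = n := Real.exp_log hn0
  set q₁ : I := ⟨(q : ℝ) / 2, by positivity, by linarith [q.2.2]⟩ with hq₁
  have hq1 : (q₁ : ℝ) = (q : ℝ) / 2 := rfl
  have hq1le : (q₁ : ℝ) ≤ q := by rw [hq1]; linarith
  have hx8 : (q₁ : ℝ) ^ 3 * L = (q : ℝ) ^ 3 * L / 8 := by rw [hq1]; ring
  have hclose := hcl q₁ (by rw [hq1]; positivity) (by rw [hq1]; linarith [q.2.2]) L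
    (by rw [hx8]; linarith)
  set x : ℝ := (q : ℝ) ^ 3 * L with hx
  have hx0 : 0 < x := by linarith
  have hxk : 1 ≤ x ^ (1 / 46 : ℝ) := Real.one_le_rpow hx1 (by norm_num)
  have hxk2 : x ^ (1 / 46 : ℝ) ≤ L := by
    refine le_trans ?_ hxL
    calc x ^ (1 / 46 : ℝ) ≤ x ^ (1 : ℝ) := Real.rpow_le_rpow_of_exponent_le hx1 (by norm_num)
      _ = x := Real.rpow_one x
  have h8 : x ^ (1 / 46 : ℝ) / 8 ≤ (x / 8) ^ (1 / 46 : ℝ) := by
    rw [Real.div_rpow hx0.le (by norm_num)]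
    refine div_le_div_of_nonneg_left (by linarith) (by positivity) ?_
    calc (8 : ℝ) ^ (1 / 46 : ℝ) ≤ 8 ^ (1 : ℝ) :=
          Real.rpow_le_rpow_of_exponent_le (by norm_num) (by norm_num)
      _ = 8 := Real.rpow_one _
  rw [hx8] at hclose
  set B : ℝ := c * L * x ^ (1 / 46 : ℝ) with hB
  have hLx : 0 ≤ L * x ^ (1 / 46 : ℝ) := by positivity
  have hδ : Real.exp (-(c1 * L * (x / 8) ^ (1 / 46 : ℝ))) ≤ Real.exp (-(5 * B)) := by
    refine Real.exp_le_exp.2 (neg_le_neg ?_)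
    have g1 : c1 * L * (x ^ (1 / 46 : ℝ) / 8) ≤ c1 * L * (x / 8) ^ (1 / 46 : ℝ) :=
      mul_le_mul_of_nonneg_left h8 (by positivity)
    have g2 : c * (L * x ^ (1 / 46 : ℝ)) ≤ c1 / 40 * (L * x ^ (1 / 46 : ℝ)) :=
      mul_le_mul_of_nonneg_right hca hLx
    rw [hB]
    linarith
  have hB10 : 10 ≤ B := by
    have g1 : 10 / c ≤ L := by linarith
    rw [div_le_iff₀ hc0] at g1
    have g2 : c * L * 1 ≤ c * L * x ^ (1 / 46 : ℝ) :=
      mul_le_mul_of_nonneg_left hxk (by positivity)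
    rw [hB]
    linarith
  have hBL : 24 * B ≤ L ^ 2 := by
    have g1 : L * x ^ (1 / 46 : ℝ) ≤ L * L := mul_le_mul_of_nonneg_left hxk2 hL0'
    have g2 : c * (L * x ^ (1 / 46 : ℝ)) ≤ 1 / 24 * (L * x ^ (1 / 46 : ℝ)) :=
      mul_le_mul_of_nonneg_right hcb hLx
    rw [hB]
    linarith
  refine ⟨?_, fun s hs => ?_⟩
  · refine (minTV_le_of_close hq1le (by rw [hq1]; linarith [q.2.2]) hclose ?_).trans
      (ENNReal.ofReal_le_ofReal (hδ.trans (Real.exp_le_exp.2 (by linarith))))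
    rw [← hn]
    exact Real.exp_le_exp.2 (by linarith)
  · exact (Ts_of_close q₁ hn hclose hδ hB10 hBL hL0' hs).trans (Ts_mono_q hq1le s n)

end Vale.Agent.P321W
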