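import Vale.Agent.P321W.Inv

/-!
The overlap of `X ^ K` and `X ^ (K + 1)`, `X = U ^ L E U ^ L`, is at least `exp (-C / q ^ 3)`:
both products are cut in about `q ^ (-3)` blocks, and corresponding blocks are close.
-/

namespace Vale.Agent.P321W

open Finset Vale.Agent.P321 Vale.Agent.P321.Cr Vale.Agent.P321.Lt

/-- overlap of mass at least `η` -/
def Ov (A B : LA) (η : ℝ) : Prop :=
  ∃ h : LA, MA.nonneg h ∧ MA.le h A ∧ MA.le h B ∧ η ≤ MA.l1 h

theorem Ov.mul {A B A' B' : LA} {η η' : ℝ} (h : Ov A B η) (h' : Ov A' B' η') (h0 : 0 ≤ η') :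
    Ov (A * A') (B * B') (η * η') := by
  obtain ⟨x, x0, x1, x2, x3⟩ := h
  obtain ⟨y, y0, y1, y2, y3⟩ := h'
  refine ⟨x * y, MA.nonneg_mul x0 y0, MA.le_mul x0 y0 x1 y1, MA.le_mul x0 y0 x2 y2, ?_⟩
  have e : MA.l1 (x * y) = MA.l1 x * MA.l1 y :=
    (MA.str (G := FreeMonoid (Fin 3))).nrm_mul_pos x0 y0
  rw [e]
  exact mul_le_mul x3 y3 h0 (MA.l1_nonneg _)

theorem Ov.of_close {A B : LA} (hA : MA.Prob A) (hB : MA.Prob B) (h : MA.l1 (A - B) ≤ 1) :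
    Ov A B (1 / 2) := by
  obtain ⟨m, hm0, hm1, hm2, hm3⟩ := MA.exists_min hA.1 hB.1
  refine ⟨m, hm0, MA.le_iff.mpr hm1, MA.le_iff.mpr hm2, ?_⟩
  rw [hA.l1, hB.l1] at hm3
  linarith

/-- a segment of the periodic word, with margins `a`, `b` and `n + 1` marked letters -/
noncomputable def Z (q : ℝ) (L a n b : ℕ) : LA :=
  U q ^ a * (E q * U q ^ (2 * L)) ^ n * E q * U q ^ b

theorem Z_mul (q : ℝ) {L a n b a' n' b' : ℕ} (h : b + a' = 2 * L) :
    Z q L a n b * Z q L a' n' b' = Z q L a (n + n' + 1) b' := by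
  unfold Z
  have e : (E q * U q ^ (2 * L)) ^ (n + n' + 1)
      = (E q * U q ^ (2 * L)) ^ n * (E q * (U q ^ b * U q ^ a')) * (E q * U q ^ (2 * L)) ^ n' := by
    rw [← pow_add, h, show n + n' + 1 = n + 1 + n' by ring, pow_add, pow_succ]
  rw [e]
  simp only [mul_assoc]

theorem Z_zero (q : ℝ) (L a b : ℕ) : Z q L a 0 b = cell q a b := by
  unfold Z cell
  rw [pow_zero, mul_one]

theorem cell_pow_Z (q : ℝ) (L n : ℕ) : cell q L L ^ (n + 1) = Z q L L n L := by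
  induction n with
  | zero => rw [zero_add, pow_one, Z_zero]
  | succ n ih => rw [pow_succ, ih, ← Z_zero q L L L, Z_mul q (by ring), add_zero]

theorem prob_Z {q : ℝ} (h0 : 0 ≤ q) (h1 : q ≤ 1) (L a n b : ℕ) : MA.Prob (Z q L a n b) :=
  MA.prob_mul (MA.prob_mul (MA.prob_mul (MA.prob_pow (prob_U h0 h1) _)
    (MA.prob_pow (MA.prob_mul (prob_E h0 h1) (MA.prob_pow (prob_U h0 h1) _)) _))
    (prob_E h0 h1)) (MA.prob_pow (prob_U h0 h1) _)

/-- the blank segment -/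
noncomputable def Bl (q : ℝ) (A i : ℕ) : LA := U q ^ A * Eb q ^ i

theorem Bl_mul (q : ℝ) (A i A' i' : ℕ) : Bl q A i * Bl q A' i' = Bl q (A + A') (i + i') := by
  unfold Bl
  have hc : Commute (Eb q ^ i) (U q ^ A') := ((commute_U_Eb q).symm.pow_pow i A')
  rw [pow_add, pow_add, mul_assoc, ← mul_assoc (Eb q ^ i), hc.eq]
  simp only [mul_assoc]

theorem prob_Bl {q : ℝ} (h0 : 0 ≤ q) (h1 : q ≤ 1) (A i : ℕ) : MA.Prob (Bl q A i) :=
  MA.prob_mul (MA.prob_pow (prob_U h0 h1) _) (MA.prob_pow (prob_Eb h0 h1) _)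

theorem l1_mul_close {a b a' b' : LA} (hb : MA.Prob b) (ha' : MA.Prob a') {x y : ℝ}
    (h1 : MA.l1 (a - a') ≤ x) (h2 : MA.l1 (b - b') ≤ y) : MA.l1 (a * b - a' * b') ≤ x + y := by
  refine (l1_mul_sub_mul _ _ _ _).trans ?_
  rw [hb.l1, ha'.l1, mul_one, one_mul]
  exact add_le_add h1 h2

theorem cell_close {q : ℝ} (hq0 : 0 < q) (hq : q ≤ 1 / 2) {m a b : ℕ} (ha : m ≤ a) (hb : m ≤ b)
    (hm : (2 : ℝ) ^ 52 ≤ q ^ 4 * m) : MA.l1 (cell q a b - Bl q (a + b) 1) ≤ 1 / 16 := by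
  have hq1 : q ≤ 1 := by linarith
  obtain ⟨x, rfl⟩ := Nat.exists_eq_add_of_le' ha
  obtain ⟨y, rfl⟩ := Nat.exists_eq_add_of_le hb
  have h := inv_sharp hq0 hq (K := 1) (L := m) le_rfl (by simpa using hm)
  rw [pow_one] at h
  have e1 : cell q (x + m) (m + y) = U q ^ x * cell q m m * U q ^ y := by
    unfold cell
    rw [pow_add, pow_add]
    simp only [mul_assoc]
  have e2 : Bl q (x + m + (m + y)) 1 = U q ^ x * Bl q (2 * m * 1) 1 * U q ^ y := by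
    have f : ∀ t, U q ^ t = Bl q t 0 := fun t => by rw [Bl, pow_zero, mul_one]
    rw [f x, f y, Bl_mul, Bl_mul]
    congr 1
    ring
  rw [e1, e2, ← sub_mul, ← mul_sub]
  have hU := prob_U hq0.le hq1
  exact (MA.l1_mul_prob_right (MA.prob_pow hU _)).trans
    ((MA.l1_mul_prob_left (MA.prob_pow hU _)).trans h)

theorem Z_close {q : ℝ} (hq0 : 0 < q) (hq : q ≤ 1 / 2) {L m a b k : ℕ} (hmL : m ≤ L) (ha : m ≤ a)
    (hb : m ≤ b) (hm : (2 : ℝ) ^ 52 ≤ q ^ 4 * m) (hk : 1 ≤ k)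
    (hsm : (2 : ℝ) ^ 52 * k ≤ q ^ 4 * L) :
    MA.l1 (Z q L a (k + 1) b - Bl q (a + b + 2 * L * (k + 1)) (k + 2)) ≤ 3 / 16 := by
  have hq1 : q ≤ 1 := by linarith
  obtain ⟨j, rfl⟩ := Nat.exists_eq_add_of_le' hk
  have e1 : Z q L a (j + 1 + 1) b = cell q a L * cell q L L ^ (j + 1) * cell q L b := by
    rw [cell_pow_Z, ← Z_zero q L a L, ← Z_zero q L L b, Z_mul q (by ring), Z_mul q (by ring)]
    congr 1
    ring
  have e2 : Bl q (a + b + 2 * L * (j + 1 + 1)) (j + 1 + 2)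
      = Bl q (a + L) 1 * Bl q (2 * L * (j + 1)) (j + 1) * Bl q (L + b) 1 := by
    rw [Bl_mul, Bl_mul]
    congr 1 <;> ring
  rw [e1, e2]
  have h1 := cell_close hq0 hq ha hmL hm
  have h2 : MA.l1 (cell q L L ^ (j + 1) - Bl q (2 * L * (j + 1)) (j + 1)) ≤ 1 / 16 :=
    inv_sharp hq0 hq hk hsm
  have h3 := cell_close hq0 hq hmL hb hm
  have h4 := l1_mul_close (MA.prob_pow (prob_cell hq0.le hq1 L L) (j + 1))
    (prob_Bl hq0.le hq1 (a + L) 1) h1 h2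
  have h5 := l1_mul_close (prob_cell hq0.le hq1 L b)
    (MA.prob_mul (prob_Bl hq0.le hq1 (a + L) 1) (prob_Bl hq0.le hq1 (2 * L * (j + 1)) (j + 1)))
    h4 h3
  linarith

theorem smooth_U {q : ℝ} (hq0 : 0 < q) (hq : q ≤ 1 / 2) (A : ℕ) :
    MA.l1 ((1 - U q) * U q ^ A) ≤ cc (q ^ 2) / Real.sqrt ((A : ℝ) + 1) := by
  have hq2 : q ^ 2 ≤ 1 / 4 := by nlinarith
  rw [← Us_U]
  exact smooth_Us hq0.le (by linarith) (by positivity) (by linarith) (by linarith) A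

theorem smooth_Eb {q : ℝ} (hq0 : 0 < q) (hq : q ≤ 1 / 2) (A : ℕ) :
    MA.l1 ((1 - Eb q) * U q ^ A) ≤ cc (q ^ 2) / Real.sqrt ((A : ℝ) + 1) := by
  have e : 1 - Eb q = (1 / (1 + q)) • (1 - U q) := by
    have e1 : 1 - Eb q = (1 - q) • (1 - v q) := by
      rw [Eb, smul_sub, sub_smul 1 q (1 : LA), one_smul]; abel
    have e2 : 1 - U q = (1 - q ^ 2) • (1 - v q) := by
      rw [U, smul_sub, sub_smul 1 (q ^ 2) (1 : LA), one_smul]; abel
    rw [e1, e2, smul_smul]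
    congr 1
    field_simp
    ring
  rw [e, smul_mul_assoc, MA.l1_smul, abs_of_pos (by positivity)]
  refine le_trans ?_ (smooth_U hq0 hq A)
  refine mul_le_of_le_one_left (MA.l1_nonneg _) ?_
  rw [div_le_one (by positivity)]
  linarith

theorem Bl_near {q : ℝ} (hq0 : 0 < q) (hq : q ≤ 1 / 2) (A i x j : ℕ) :
    MA.l1 (Bl q A i - Bl q (A + x) (i + j))
      ≤ (x + j) * (cc (q ^ 2) / Real.sqrt ((A : ℝ) + 1)) := by
  have hq1 : q ≤ 1 := by linarith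
  set φ := cc (q ^ 2) / Real.sqrt ((A : ℝ) + 1) with hφ
  have tri : ∀ a b c : LA, MA.l1 (a - c) ≤ MA.l1 (a - b) + MA.l1 (b - c) :=
    (MA.str (G := FreeMonoid (Fin 3))).nrm_triangle
  have sU : ∀ x i, MA.l1 (Bl q (A + x) i - Bl q (A + (x + 1)) i) ≤ φ := by
    intro x i
    have e : Bl q (A + x) i - Bl q (A + (x + 1)) i = (1 - U q) * U q ^ A * Bl q x i := by
      unfold Bl
      rw [sub_mul, one_mul, sub_mul, ← pow_succ', ← mul_assoc, ← mul_assoc, ← pow_add, ← pow_add]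
      congr 3
      ring
    rw [e]
    exact (MA.l1_mul_prob_right (prob_Bl hq0.le hq1 _ _)).trans (smooth_U hq0 hq A)
  have sE : ∀ i, MA.l1 (Bl q A i - Bl q A (i + 1)) ≤ φ := by
    intro i
    have e : Bl q A i - Bl q A (i + 1) = (1 - Eb q) * U q ^ A * Eb q ^ i := by
      unfold Bl
      have hc : Commute (Eb q) (U q ^ A) := (commute_U_Eb q).symm.pow_right A
      rw [sub_mul, one_mul, sub_mul, hc.eq, mul_assoc, ← pow_succ']
    rw [e]
    exact (MA.l1_mul_prob_right (MA.prob_pow (prob_Eb hq0.le hq1) _)).trans (smooth_Eb hq0 hq A)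
  have h1 : ∀ j, MA.l1 (Bl q A i - Bl q A (i + j)) ≤ j * φ := by
    intro j
    induction j with
    | zero => simp [MA.l1_zero]
    | succ j ih =>
      have := tri (Bl q A i) (Bl q A (i + j)) (Bl q A (i + (j + 1)))
      have h2 := sE (i + j)
      rw [add_assoc] at h2
      push_cast
      linarith
  have h2 : ∀ x i, MA.l1 (Bl q A i - Bl q (A + x) i) ≤ x * φ := by
    intro x i
    induction x with
    | zero => simp [MA.l1_zero]
    | succ x ih =>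
      have := tri (Bl q A i) (Bl q (A + x) i) (Bl q (A + (x + 1)) i)
      have h3 := sU x i
      push_cast
      linarith
  have := tri (Bl q A i) (Bl q A (i + j)) (Bl q (A + x) (i + j))
  have h3 := h1 j
  have h4 := h2 x (i + j)
  linarith

/-- corresponding blocks overlap -/
theorem Z_ov {q : ℝ} (hq0 : 0 < q) (hq : q ≤ 1 / 2) {L m a b a' b' k j y : ℕ} (hmL : m ≤ L)
    (ha : m ≤ a) (hb : m ≤ b) (ha' : m ≤ a') (hb' : m ≤ b') (hm : (2 : ℝ) ^ 52 ≤ q ^ 4 * m)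
    (hk : 1 ≤ k) (hsm : (2 : ℝ) ^ 52 * (k + j) ≤ q ^ 4 * L)
    (he : a' + b' + 2 * L * j = a + b + y)
    (hφ : ((y : ℝ) + j) * (cc (q ^ 2) / Real.sqrt (((2 * L * (k + 1) : ℕ) : ℝ) + 1)) ≤ 5 / 8) :
    Ov (Z q L a (k + 1) b) (Z q L a' (k + j + 1) b') (1 / 2) := by
  have hq1 : q ≤ 1 := by linarith
  refine Ov.of_close (prob_Z hq0.le hq1 _ _ _ _) (prob_Z hq0.le hq1 _ _ _ _) ?_
  have hj0 : (0 : ℝ) ≤ j := Nat.cast_nonneg j
  have h1 := Z_close hq0 hq hmL ha hb hm hk (by nlinarith)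
  have h2 := Z_close hq0 hq (k := k + j) hmL ha' hb' hm (by omega) (by push_cast; exact hsm)
  have h3 := Bl_near hq0 hq (a + b + 2 * L * (k + 1)) (k + 2) y j
  have e1 : a + b + 2 * L * (k + 1) + y = a' + b' + 2 * L * (k + j + 1) := by
    have : 2 * L * (k + j + 1) = 2 * L * (k + 1) + 2 * L * j := by ring
    omega
  rw [e1, show k + 2 + j = k + j + 2 by ring] at h3
  have h4 : cc (q ^ 2) / Real.sqrt (((a + b + 2 * L * (k + 1) : ℕ) : ℝ) + 1)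
      ≤ cc (q ^ 2) / Real.sqrt (((2 * L * (k + 1) : ℕ) : ℝ) + 1) := by
    refine div_le_div_of_nonneg_left (cc_pos (by positivity)).le
      (Real.sqrt_pos.mpr (by positivity)) (Real.sqrt_le_sqrt ?_)
    have : 2 * L * (k + 1) ≤ a + b + 2 * L * (k + 1) := Nat.le_add_left _ _
    have h5 : ((2 * L * (k + 1) : ℕ) : ℝ) ≤ ((a + b + 2 * L * (k + 1) : ℕ) : ℝ) := by
      exact_mod_cast this
    linarith
  have h5 := mul_le_mul_of_nonneg_left h4 (show (0 : ℝ) ≤ (y : ℝ) + j by positivity)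
  have tri : ∀ a b c : LA, MA.l1 (a - c) ≤ MA.l1 (a - b) + MA.l1 (b - c) :=
    (MA.str (G := FreeMonoid (Fin 3))).nrm_triangle
  have t1 := tri (Z q L a (k + 1) b) (Bl q (a + b + 2 * L * (k + 1)) (k + 2))
    (Z q L a' (k + j + 1) b')
  have t2 := tri (Bl q (a + b + 2 * L * (k + 1)) (k + 2))
    (Bl q (a' + b' + 2 * L * (k + j + 1)) (k + j + 2)) (Z q L a' (k + j + 1) b')
  rw [MA.l1_sub_comm] at h2
  linarith

/-- **The overlap through blocks.** -/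
theorem ov_blocks {q : ℝ} (hq0 : 0 < q) (hq : q ≤ 1 / 2) {L m k J d : ℕ} (hJ : m + J * d ≤ L)
    (hJ2 : 2 * (J * d) ≤ L) (hm : (2 : ℝ) ^ 52 ≤ q ^ 4 * m) (hk : 1 ≤ k)
    (hsm : (2 : ℝ) ^ 52 * (k + 1) ≤ q ^ 4 * L)
    (hφ1 : ((2 * d : ℕ) : ℝ) * (cc (q ^ 2) / Real.sqrt (((2 * L * (k + 1) : ℕ) : ℝ) + 1)) ≤ 5 / 8)
    (hφ2 : (((2 * L - 4 * (J * d) : ℕ) : ℝ) + 1) *
      (cc (q ^ 2) / Real.sqrt (((2 * L * (k + 1) : ℕ) : ℝ) + 1)) ≤ 5 / 8) :
    Ov (cell q L L ^ ((2 * J + 3) * (k + 2))) (cell q L L ^ ((2 * J + 3) * (k + 2) + 1))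
      ((1 / 2) ^ (2 * J + 3)) := by
  have hq1 : q ≤ 1 := by linarith
  have hmL : m ≤ L := by omega
  have hsm0 : (2 : ℝ) ^ 52 * (k + (0 : ℕ)) ≤ q ^ 4 * L := by
    push_cast
    linarith
  have hφ0 : (((2 * d : ℕ) : ℝ) + (0 : ℕ)) *
      (cc (q ^ 2) / Real.sqrt (((2 * L * (k + 1) : ℕ) : ℝ) + 1)) ≤ 5 / 8 := by
    rw [Nat.cast_zero, add_zero]; exact hφ1
  have hself : Ov (Z q L L (k + 1) L) (Z q L L (k + 1) L) (1 / 2) :=
    Ov.of_close (prob_Z hq0.le hq1 _ _ _ _) (prob_Z hq0.le hq1 _ _ _ _)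
      (by rw [sub_self, MA.l1_zero]; norm_num)
  have hle : ∀ j, j + 1 ≤ J → j * d + d ≤ J * d := fun j hj => by
    rw [← Nat.succ_mul]; exact Nat.mul_le_mul_right d hj
  have h1 : ∀ j, j ≤ J → Ov (Z q L L (j * (k + 2) + (k + 1)) (L - j * d))
      (Z q L L (j * (k + 2) + (k + 1)) (L + j * d)) ((1 / 2) ^ (j + 1)) := by
    intro j
    induction j with
    | zero => intro _; simpa using hself
    | succ j ih =>
      intro hj
      have g1 := hle j hj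
      have e : (j + 1) * d = j * d + d := Nat.succ_mul _ _
      have hb := Z_ov hq0 hq (a := L + j * d) (b := L - (j + 1) * d) (a' := L - j * d)
        (b' := L + (j + 1) * d) (j := 0) (y := 2 * d) hmL (by omega) (by omega) (by omega)
        (by omega) hm hk hsm0 (by omega) hφ0
      have := (ih (by omega)).mul hb (by norm_num)
      rw [Z_mul q (by omega), Z_mul q (by omega), ← pow_succ] at this
      have e2 : j * (k + 2) + (k + 1) + (k + 1) + 1 = (j + 1) * (k + 2) + (k + 1) := by ring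
      rw [add_zero, e2] at this
      exact this
  have h2 : ∀ j, j ≤ J → Ov (Z q L (L - j * d) (j * (k + 2) + (k + 1)) L)
      (Z q L (L + j * d) (j * (k + 2) + (k + 1)) L) ((1 / 2) ^ (j + 1)) := by
    intro j
    induction j with
    | zero => intro _; simpa using hself
    | succ j ih =>
      intro hj
      have g1 := hle j hj
      have e : (j + 1) * d = j * d + d := Nat.succ_mul _ _
      have hb := Z_ov hq0 hq (a := L - (j + 1) * d) (b := L + j * d) (a' := L + (j + 1) * d)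
        (b' := L - j * d) (j := 0) (y := 2 * d) hmL (by omega) (by omega) (by omega)
        (by omega) hm hk hsm0 (by omega) hφ0
      have := hb.mul (ih (by omega)) (by positivity)
      rw [Z_mul q (by omega), Z_mul q (by omega), ← pow_succ'] at this
      have e2 : k + 1 + (j * (k + 2) + (k + 1)) + 1 = (j + 1) * (k + 2) + (k + 1) := by ring
      rw [add_zero, e2] at this
      exact this
  have h3 := Z_ov hq0 hq (a := L + J * d) (b := L + J * d) (a' := L - J * d) (b' := L - J * d)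
    (j := 1) (y := 2 * L - 4 * (J * d)) hmL (by omega) (by omega) (by omega) (by omega) hm hk
    (by push_cast; exact hsm) (by omega) (by rw [Nat.cast_one]; exact hφ2)
  have h4 := ((h1 J le_rfl).mul h3 (by norm_num)).mul (h2 J le_rfl) (by positivity)
  rw [Z_mul q (by omega), Z_mul q (by omega), Z_mul q (by omega), Z_mul q (by omega),
    ← cell_pow_Z, ← cell_pow_Z, ← pow_succ, ← pow_add] at h4
  have e1 : J * (k + 2) + (k + 1) + (k + 1) + 1 + (J * (k + 2) + (k + 1)) + 1 + 1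
      = (2 * J + 3) * (k + 2) := by ring
  have e2 : J * (k + 2) + (k + 1) + (k + 1 + 1) + 1 + (J * (k + 2) + (k + 1)) + 1 + 1
      = (2 * J + 3) * (k + 2) + 1 := by ring
  have e3 : J + 1 + 1 + (J + 1) = 2 * J + 3 := by ring
  rwa [e1, e2, e3] at h4

theorem phi_le {q : ℝ} (hq0 : 0 < q) {L k : ℕ} (hL : 1 ≤ L)
    (hk : q ^ 4 * L ≤ (2 : ℝ) ^ 53 * (k + 1)) :
    cc (q ^ 2) / Real.sqrt (((2 * L * (k + 1) : ℕ) : ℝ) + 1) ≤ 2 ^ 27 / (q ^ 3 * L) := by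
  have hL0 : (0 : ℝ) < L := by exact_mod_cast hL
  have h1 : q ^ 2 * L / 2 ^ 26 ≤ Real.sqrt (((2 * L * (k + 1) : ℕ) : ℝ) + 1) := by
    apply Real.le_sqrt_of_sq_le
    push_cast
    have e : (q ^ 2 * L / 2 ^ 26) ^ 2 = (L / 2 ^ 52) * (q ^ 4 * L) := by ring
    have h2 : (L / 2 ^ 52 : ℝ) * (q ^ 4 * L) ≤ (L / 2 ^ 52) * (2 ^ 53 * (k + 1)) :=
      mul_le_mul_of_nonneg_left hk (by positivity)
    have e2 : (L / 2 ^ 52 : ℝ) * (2 ^ 53 * (k + 1)) = 2 * L * (k + 1) := by ring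
    linarith
  calc cc (q ^ 2) / Real.sqrt (((2 * L * (k + 1) : ℕ) : ℝ) + 1)
      ≤ (3 / (2 * q)) / (q ^ 2 * L / 2 ^ 26) :=
        div_le_div₀ (by positivity) (cc_sq_le hq0) (by positivity) h1
    _ = (3 / 4) * (2 ^ 27 / (q ^ 3 * L)) := by field_simp; norm_num
    _ ≤ 2 ^ 27 / (q ^ 3 * L) := mul_le_of_le_one_left (by positivity) (by norm_num)

theorem size_facts {q x : ℝ} (hq0 : 0 < q) (hq : q ≤ 1 / 2) (hx : 0 < x)
    (hL : 2 ^ 45 / q ^ 3 ≤ Real.log x) : 2 ^ 80 ≤ q ^ 6 * x ∧ 2 ^ 80 ≤ q ^ 4 * x := by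
  have hq3 : 0 < q ^ 3 := by positivity
  have h0 : (0 : ℝ) ≤ 2 ^ 45 / q ^ 3 := by positivity
  have h1 : (2 ^ 45 / q ^ 3) ^ 2 / 2 ≤ x := by
    have h2 := Real.quadratic_le_exp_of_nonneg h0
    have h3 : Real.exp (2 ^ 45 / q ^ 3) ≤ x := by
      rw [← Real.exp_log hx]; exact Real.exp_le_exp.2 hL
    linarith
  have h4 : (2 : ℝ) ^ 80 ≤ q ^ 6 * x := by
    have e : (2 ^ 45 / q ^ 3 : ℝ) ^ 2 / 2 = 2 ^ 89 / q ^ 6 := by field_simp
    rw [e, div_le_iff₀ (by positivity)] at h1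
    linarith
  refine ⟨h4, h4.trans (mul_le_mul_of_nonneg_right ?_ hx.le)⟩
  exact pow_le_pow_of_le_one hq0.le (by linarith) (by norm_num)

/-- **The critical slip at the scale `exp (C / q ^ 3)`.** -/
theorem over_cube {q : ℝ} (hq0 : 0 < q) (hq : q ≤ 1 / 2) {L : ℕ}
    (hL : 2 ^ 45 / q ^ 3 ≤ Real.log L) : ∃ (K : ℕ) (h : LA), K ≤ L ∧ MA.nonneg h ∧
      MA.le h (cell q L L ^ K) ∧ MA.le h (cell q L L ^ (K + 1)) ∧
      (L : ℝ) ^ (-(1 / 4096) : ℝ) ≤ MA.l1 h := by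
  have hq3 : 0 < q ^ 3 := by positivity
  have hq31 : q ^ 3 ≤ 1 := pow_le_one₀ hq0.le (by linarith)
  have hL1 : 1 ≤ L := by
    rcases Nat.eq_zero_or_pos L with h | h
    · rw [h, Nat.cast_zero, Real.log_zero] at hL
      have : (0 : ℝ) < 2 ^ 45 / q ^ 3 := by positivity
      linarith
    · exact h
  have hL0 : (0 : ℝ) < L := by exact_mod_cast hL1
  obtain ⟨s6, s4⟩ := size_facts hq0 hq hL0 hL
  obtain ⟨J, hJ⟩ : ∃ J : ℕ, J = ⌈(2 : ℝ) ^ 30 / q ^ 3⌉₊ := ⟨_, rfl⟩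
  have hJ1 : (2 : ℝ) ^ 30 / q ^ 3 ≤ J := by rw [hJ]; exact Nat.le_ceil _
  have hw : (1 : ℝ) ≤ 1 / q ^ 3 := by rw [le_div_iff₀ hq3]; linarith
  have ew : (2 : ℝ) ^ 30 / q ^ 3 = 2 ^ 30 * (1 / q ^ 3) := by ring
  have hJ2 : (J : ℝ) ≤ 2 ^ 31 * (1 / q ^ 3) := by
    have := (Nat.ceil_lt_add_one (show (0 : ℝ) ≤ 2 ^ 30 / q ^ 3 by positivity)).le
    rw [← hJ] at this
    linarith
  have hJ0 : (0 : ℝ) < J := lt_of_lt_of_le (by positivity) hJ1
  have hJ0' : 0 < J := by exact_mod_cast hJ0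
  obtain ⟨d, hd⟩ : ∃ d : ℕ, d = L / (2 * J) := ⟨_, rfl⟩
  have hd1 : 2 * (J * d) ≤ L := by
    have := Nat.mul_div_le L (2 * J)
    rw [← hd, mul_assoc] at this
    exact this
  have hd2 : L < 2 * (J * d) + 2 * J := by
    have := Nat.lt_mul_div_succ L (show 0 < 2 * J by omega)
    rw [← hd, mul_add, mul_one, mul_assoc] at this
    exact this
  obtain ⟨k, hk⟩ : ∃ k : ℕ, k = ⌊q ^ 4 * L / 2 ^ 53⌋₊ := ⟨_, rfl⟩
  have hk1 : (k : ℝ) ≤ q ^ 4 * L / 2 ^ 53 := by rw [hk]; exact Nat.floor_le (by positivity)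
  have hk2 : q ^ 4 * L / 2 ^ 53 < k + 1 := by rw [hk]; exact Nat.lt_floor_add_one _
  have hk3 : 1 ≤ k := by
    rw [hk]
    refine Nat.le_floor ?_
    rw [Nat.cast_one, le_div_iff₀ (by positivity)]
    linarith
  have hk3' : (1 : ℝ) ≤ k := by exact_mod_cast hk3
  have hφ := phi_le hq0 hL1 (k := k) (by linarith)
  have hφ0 : 0 ≤ cc (q ^ 2) / Real.sqrt (((2 * L * (k + 1) : ℕ) : ℝ) + 1) :=
    div_nonneg (cc_pos (by positivity)).le (Real.sqrt_nonneg _)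
  have hd1' : 2 * ((J : ℝ) * d) ≤ L := by exact_mod_cast hd1
  have hov := ov_blocks hq0 hq (L := L) (m := L - J * d) (k := k) (J := J) (d := d) (by omega) hd1
    (by
      rw [Nat.cast_sub (by omega)]
      push_cast
      have h1 : q ^ 4 * ((L : ℝ) / 2) ≤ q ^ 4 * (L - J * d) :=
        mul_le_mul_of_nonneg_left (by linarith) (by positivity)
      linarith) hk3 (by linarith)
    (by
      have h1 : ((2 * d : ℕ) : ℝ) ≤ q ^ 3 * L / 2 ^ 30 := by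
        push_cast
        have h2 : (2 : ℝ) ^ 30 ≤ J * q ^ 3 := by rwa [div_le_iff₀ hq3] at hJ1
        have h3 : (2 : ℝ) ^ 30 * (2 * d) ≤ J * q ^ 3 * (2 * d) :=
          mul_le_mul_of_nonneg_right h2 (by positivity)
        have h4 : q ^ 3 * (2 * ((J : ℝ) * d)) ≤ q ^ 3 * L := mul_le_mul_of_nonneg_left hd1' hq3.le
        rw [le_div_iff₀ (by positivity)]
        linarith
      calc _ ≤ (q ^ 3 * L / 2 ^ 30) * (2 ^ 27 / (q ^ 3 * L)) :=
            mul_le_mul h1 hφ hφ0 (by positivity)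
        _ = 1 / 8 := by field_simp; norm_num
        _ ≤ 5 / 8 := by norm_num)
    (by
      have h1 : ((2 * L - 4 * (J * d) : ℕ) : ℝ) + 1 ≤ 2 ^ 34 * (1 / q ^ 3) := by
        have h2 : 2 * L - 4 * (J * d) ≤ 4 * J := by omega
        have h3 : ((2 * L - 4 * (J * d) : ℕ) : ℝ) ≤ 4 * J := by exact_mod_cast h2
        linarith
      calc _ ≤ (2 ^ 34 * (1 / q ^ 3)) * (2 ^ 27 / (q ^ 3 * L)) :=
            mul_le_mul h1 hφ hφ0 (by positivity)
        _ = 2 ^ 61 / (q ^ 6 * L) := by field_simp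
        _ ≤ 5 / 8 := by
            rw [div_le_iff₀ (by positivity)]
            linarith)
  obtain ⟨h, g0, g1, g2, g3⟩ := hov
  have hJ3 : ((2 * J + 3 : ℕ) : ℝ) ≤ 2 ^ 33 * (1 / q ^ 3) := by
    push_cast
    linarith
  refine ⟨(2 * J + 3) * (k + 2), h, ?_, g0, g1, g2, le_trans ?_ g3⟩
  · have h1 : (((2 * J + 3) * (k + 2) : ℕ) : ℝ) ≤ L := by
      rw [Nat.cast_mul]
      have h2 : ((k + 2 : ℕ) : ℝ) ≤ q ^ 4 * L / 2 ^ 51 := by
        push_cast
        linarith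
      calc ((2 * J + 3 : ℕ) : ℝ) * ((k + 2 : ℕ) : ℝ)
          ≤ (2 ^ 33 * (1 / q ^ 3)) * (q ^ 4 * L / 2 ^ 51) :=
            mul_le_mul hJ3 h2 (by positivity) (by positivity)
        _ = (q / 2 ^ 18) * L := by field_simp
        _ ≤ L := mul_le_of_le_one_left hL0.le (by linarith)
    exact_mod_cast h1
  · rw [Real.rpow_def_of_pos hL0]
    have e : (1 / 2 : ℝ) ^ (2 * J + 3) = Real.exp (((2 * J + 3 : ℕ) : ℝ) * (-Real.log 2)) := by
      rw [Real.exp_nat_mul, Real.exp_neg, Real.exp_log (by norm_num), one_div]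
    rw [e]
    apply Real.exp_le_exp.2
    have hl2 : Real.log 2 ≤ 1 := by linarith [Real.log_two_lt_d9]
    have h1 : ((2 * J + 3 : ℕ) : ℝ) * Real.log 2 ≤ ((2 * J + 3 : ℕ) : ℝ) :=
      mul_le_of_le_one_right (Nat.cast_nonneg _) hl2
    have e2 : (2 : ℝ) ^ 45 / q ^ 3 = 4096 * (2 ^ 33 * (1 / q ^ 3)) := by ring
    linarith

end Vale.Agent.P321W
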