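import Vale.Agent.P321W.Base
import Vale.Agent.P321.H35.UBase

/-!
Base states of the superlinear recursion at the scales `exp a`, `a ≥ C / q ^ 3`.
-/

namespace Vale.Agent.P321W

open Filter Topology Vale.Agent.P321 Vale.Agent.P321.LB2

/-- **Base states at the scales `exp a`, `a ≥ C / q ^ 3`.** -/
theorem base_uni_cube (ε R : ℝ) (hε : 0 ≤ ε) : ∃ C : ℝ, 1 ≤ C ∧ ∀ q : ℝ, 0 < q → q ≤ 1 / 2 →
    ∀ t : ℝ, C / q ^ 3 ≤ t → ∃ a : ℝ, t ≤ a ∧ a ≤ C * t ∧ StL q ε a (R * a) (R * a) := by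
  obtain ⟨M, hM1, hbase⟩ := stBase_cube
  obtain ⟨N, J, hN270, hJ, hJ24, hRJ⟩ := const_exists R
  have hN1 : (1:ℝ) ≤ N := by exact_mod_cast (by omega : 1 ≤ N)
  obtain ⟨D, hD⟩ : ∃ D : ℝ, D = N * 4 ^ J := ⟨_, rfl⟩
  have hNJ : (1:ℝ) ≤ D := by
    rw [hD]
    exact one_le_mul_of_one_le_of_one_le hN1 (one_le_pow₀ (by norm_num))
  obtain ⟨C, hC⟩ : ∃ C : ℝ, C = (M : ℝ) + 33 * N ^ 2 + 200000 * D := ⟨_, rfl⟩
  have hNsq : 0 ≤ (N:ℝ) ^ 2 := sq_nonneg _
  have hC1 : 1 ≤ C := by rw [hC]; linarith only [hM1, hNsq, hNJ]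
  refine ⟨C, hC1, fun q h0 h2 t ht => ?_⟩
  have hq1 : q ≤ 1 := by linarith
  have hq3 : 0 < q ^ 3 := by positivity
  have hCC : C ≤ C / q ^ 3 := by
    rw [le_div_iff₀ hq3]
    exact mul_le_of_le_one_right (by linarith only [hC1]) (pow_le_one₀ h0.le hq1)
  have hMC : M / q ^ 3 ≤ C / q ^ 3 := by
    have hMleC : (M:ℝ) ≤ C := by rw [hC]; linarith only [hM1, hNsq, hNJ]
    exact div_le_div_of_nonneg_right hMleC hq3.le
  have ht1 : 1 ≤ t := by linarith
  obtain ⟨z, hz⟩ : ∃ z : ℕ, z = ⌈t⌉₊ := ⟨_, rfl⟩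
  have hzt : t ≤ z := by rw [hz]; exact Nat.le_ceil t
  have hzt2 : (z:ℝ) ≤ 2 * t := by
    have := Nat.ceil_lt_add_one (by linarith : 0 ≤ t)
    rw [← hz] at this
    linarith
  have hz33 : 33 * N ^ 2 ≤ z := by
    have : (33:ℝ) * N ^ 2 ≤ z := by
      have h3 : (33:ℝ) * N ^ 2 ≤ C := by rw [hC]; linarith only [hM1, hNsq, hNJ]
      linarith only [h3, hCC, ht, hzt]
    exact_mod_cast this
  have hz1 : 1 ≤ z := by
    have : 1 ≤ N ^ 2 := Nat.one_le_pow _ _ (by omega)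
    omega
  have hNz : N ≤ N * z := Nat.le_mul_of_pos_right _ hz1
  have hzN : z ≤ N * z := Nat.le_mul_of_pos_left _ (by omega)
  have hPX : M / q ^ 3 ≤ ((4096 * (N * z) : ℕ) : ℝ) := by
    refine (hMC.trans ht).trans (hzt.trans ?_)
    exact_mod_cast (by omega : z ≤ 4096 * (N * z))
  have hb := hbase q h0 h2 (4096 * (N * z)) hPX (4100 * (N * z)) (5112 * (N * z)) (8180 * (N * z))
    (512 * (N * z)) (by omega) (by omega) (by omega) (by omega) (by omega)
  have hstep : MA.StepOK q 24 := MA.step_ok (MA.smallDS le_rfl) h0.le hq1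
  have hc := MA.rate_core hstep (by omega) (by omega) hz33 (Real.exp_pos _).le hb J (by omega)
  obtain ⟨s, hs⟩ : ∃ s, s = MA.ss N z J := ⟨_, rfl⟩
  have lo := MA.ss_lo N z J
  have hi := MA.ss_hi N z J (by omega) (by omega)
  rw [← hs] at hc lo hi
  have hi' : s ≤ 130 * z * 4 ^ J := by exact_mod_cast hi
  have herr0 := MA.err_arith N z J (by omega) hz1 (by omega) (by omega)
  obtain ⟨B, hB⟩ : ∃ B, B = N * (z * 4 ^ J) := ⟨_, rfl⟩
  rw [← hB] at herr0
  obtain ⟨P, hP⟩ : ∃ P, P = N * s := ⟨_, rfl⟩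
  rw [← hP] at hc
  have lo2 : 65 * B ≤ P := by
    have := Nat.mul_le_mul_left N lo
    have e : N * (65 * z * 4 ^ J) = 65 * B := by rw [hB]; ring
    omega
  have hi2 : P ≤ 130 * B := by
    have := Nat.mul_le_mul_left N hi'
    have e : N * (130 * z * 4 ^ J) = 130 * B := by rw [hB]; ring
    omega
  have hJN : 129 + J ≤ N := by omega
  have hB1 : z ≤ B := by
    rw [hB]
    have h5 : 1 ≤ 4 ^ J := Nat.one_le_pow _ _ (by norm_num)
    calc z = 1 * (z * 1) := by ring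
      _ ≤ N * (z * 4 ^ J) := by gcongr; omega
  -- the error
  have herr : (2 : ℝ) ^ (512 * P) * Real.exp (-(2 : ℝ) ^ (4096 * (N * z) / 2))
      ≤ ((2 : ℝ) ^ (4 * P * (129 + J)))⁻¹ := by
    refine MA.exp_arith (c' := 2048 * (N * z)) ?_ (by omega)
    have g2 : 4 * P * (129 + J) ≤ 4 * P * N := Nat.mul_le_mul_left _ hJN
    have g3 : 512 * P + 4 * P * N ≤ 512 * P * N := by
      have a1 : P * 270 ≤ P * N := Nat.mul_le_mul_left _ hN270
      have a2 : 4 * P * N = 4 * (P * N) := by ring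
      have a3 : 512 * P * N = 512 * (P * N) := by ring
      omega
    have g4 : 512 * P * N ≤ 512 * (130 * B) * N :=
      Nat.mul_le_mul_right _ (Nat.mul_le_mul_left _ hi2)
    have g5 : 512 * (130 * B) * N = 66560 * (N * B) := by ring
    omega
  have hP65 : 65 ≤ P := by omega
  have hP0 : (65:ℝ) ≤ P := by exact_mod_cast hP65
  have hgh : 256 * P + 14 ≤ 2 * P * (129 + J) := by
    have e : 2 * P * (129 + J) = 258 * P + 2 * (P * J) := by ring
    omega
  have hSt := St_of_tri (R := R) h0.le hq1 hε hc (by positivity) herr (by ring)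
    hgh (by omega) (by
      push_cast
      have h6 : R * (512 * (P:ℝ)) + 2 = 2 * P * (256 * R) + 2 := by ring
      have h7 : 2 * (P:ℝ) * (256 * R + 1) ≤ 2 * P * (129 + J) :=
        mul_le_mul_of_nonneg_left hRJ (by linarith only [hP0])
      linarith only [h6, h7, hP0])
  have hl2 : (0.5:ℝ) ≤ Real.log 2 := by linarith [Real.log_two_gt_d9]
  have hl2' : Real.log 2 ≤ 1 := by linarith [Real.log_two_lt_d9]
  refine ⟨_, ?_, ?_, hSt⟩
  · push_cast
    have h8 : (z:ℝ) ≤ P := by exact_mod_cast (by omega : z ≤ P)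
    have h9 : 512 * (P:ℝ) * 0.5 ≤ 512 * P * Real.log 2 :=
      mul_le_mul_of_nonneg_left hl2 (by linarith only [hP0])
    linarith only [h8, h9, hzt, hP0]
  · push_cast
    have h8 : (P:ℝ) ≤ 130 * (D * z) := by
      have : P ≤ 130 * (N * (z * 4 ^ J)) := by rw [← hB]; exact hi2
      have h9 : (P:ℝ) ≤ 130 * (N * (z * 4 ^ J)) := by exact_mod_cast this
      have h10 : D * (z:ℝ) = N * (z * 4 ^ J) := by rw [hD]; ring
      rw [h10]; exact h9
    have h9 : D * (z:ℝ) ≤ D * (2 * t) :=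
      mul_le_mul_of_nonneg_left hzt2 (by linarith only [hNJ])
    have h10 : 512 * (P:ℝ) * Real.log 2 ≤ 512 * P * 1 :=
      mul_le_mul_of_nonneg_left hl2' (by linarith only [hP0])
    have h11 : (200000 * D) * t ≤ C * t := by
      refine mul_le_mul_of_nonneg_right ?_ (by linarith only [ht1])
      rw [hC]; linarith only [hM1, hNsq, hNJ]
    have h12 : 0 ≤ D * t := mul_nonneg (by linarith only [hNJ]) (by linarith only [ht1])
    linarith only [h8, h9, h10, h11, h12]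

end Vale.Agent.P321W
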